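import Mathlib

/-!
# An order zero map of matrices with an isometry defect

For a linear map `φ` on `M_n` with `φ x * φ y = φ 1 * φ (x * y)` and `v` with
`v⋆ v = 1 - φ 1`, `φ e₀₀ v = v`, the element `c = v⋆ v + ∑ᵢ Rᵢ Rᵢ⋆`, `Rᵢ = φ eᵢ₀ v`, commutes with
all of them, has spectrum in the unit interval and controls the relations.
-/

open scoped ComplexOrder

noncomputable section

namespace Vale.Agent.P101.Universal

/-- Square matrices of size `n`. -/
abbrev Mat (n : ℕ) := CStarMatrix (Fin n) (Fin n) ℂ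

/-- A matrix unit. -/
def munit {ι : Type*} [DecidableEq ι] (i j : ι) : CStarMatrix ι ι ℂ :=
  CStarMatrix.ofMatrix (Matrix.single i j 1)

theorem munit_apply {ι : Type*} [DecidableEq ι] (i j k l : ι) :
    munit i j k l = if i = k ∧ j = l then (1 : ℂ) else 0 := rfl

theorem munit_mul {ι : Type*} [Fintype ι] [DecidableEq ι] (i j k l : ι) :
    munit i j * munit k l = if j = k then munit i l else 0 := by
  split_ifs with h
  · subst h
    refine Eq.trans (Matrix.single_mul_single_same (c := (1 : ℂ)) i j l 1) ?_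
    rw [mul_one]; rfl
  · exact Matrix.single_mul_single_of_ne (c := (1 : ℂ)) i j k h 1

theorem star_munit {ι : Type*} [DecidableEq ι] (i j : ι) : star (munit i j) = munit j i := by
  ext k l
  rw [CStarMatrix.star_apply, munit_apply, munit_apply]
  split_ifs with h h' h'
  · simp
  · exact absurd ⟨h.2, h.1⟩ h'
  · exact absurd ⟨h'.2, h'.1⟩ h
  · simp

theorem sum_smul_munit {ι : Type*} [Fintype ι] [DecidableEq ι] (x : CStarMatrix ι ι ℂ) :
    x = ∑ i, ∑ j, x i j • munit i j := by
  show (x : Matrix ι ι ℂ) = ∑ i, ∑ j, x i j • (Matrix.single i j 1 : Matrix ι ι ℂ)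
  conv_lhs => rw [Matrix.matrix_eq_sum_single x]
  simp only [Matrix.smul_single, smul_eq_mul, mul_one]
  rfl

theorem sum_munit_self {ι : Type*} [Fintype ι] [DecidableEq ι] :
    ∑ i, munit i i = (1 : CStarMatrix ι ι ℂ) := by
  rw [sum_smul_munit (1 : CStarMatrix ι ι ℂ)]
  simp [CStarMatrix.one_apply]

/-- The data: an order zero map on `M_n` and a partial isometry up to its defect. -/
structure Gen (n : ℕ) [NeZero n] (B : Type*) [CStarAlgebra B] [PartialOrder B]
    [StarOrderedRing B] where
  /-- The order zero map. -/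
  phi : Mat n →ₗ[ℂ] B
  /-- The element `v`. -/
  v : B
  phi_star : ∀ x, phi (star x) = star (phi x)
  phi_mul : ∀ x y, phi x * phi y = phi 1 * phi (x * y)
  phi_nonneg : 0 ≤ phi 1
  v_star_v : star v * v = 1 - phi 1
  e00_v : phi (munit 0 0) * v = v

variable {n : ℕ} [NeZero n] {B : Type*} [CStarAlgebra B] [PartialOrder B] [StarOrderedRing B]

namespace Gen

variable (D : Gen n B)

/-- The image of a matrix unit. -/
def e (i j : Fin n) : B := D.phi (munit i j)

/-- The image of the unit. -/
def a : B := D.phi 1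

/-- The defect. -/
def p : B := star D.v * D.v

/-- The columns `φ eᵢ₀ v`. -/
def R (i : Fin n) : B := D.e i 0 * D.v

/-- The range part of the central element. -/
def q : B := ∑ i, D.R i * star (D.R i)

/-- The central element. -/
def c : B := D.p + D.q

theorem p_eq : D.p = 1 - D.a := D.v_star_v

theorem a_add_p : D.a + D.p = 1 := by rw [p_eq, add_sub_cancel]

theorem phi_eq (x : Mat n) : D.phi x = ∑ i, ∑ j, x i j • D.e i j := by
  conv_lhs => rw [sum_smul_munit x]
  simp only [map_sum, map_smul, e]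

theorem e_mul (i j k l : Fin n) : D.e i j * D.e k l = if j = k then D.a * D.e i l else 0 := by
  rw [e, e, D.phi_mul, munit_mul]
  split_ifs <;> simp [e, a]

theorem star_e (i j : Fin n) : star (D.e i j) = D.e j i := by
  rw [e, ← D.phi_star, star_munit, e]

theorem sum_e : ∑ i, D.e i i = D.a := by
  simp only [e, a, ← map_sum, sum_munit_self]

theorem commute_a_phi (x : Mat n) : Commute D.a (D.phi x) := by
  show D.phi 1 * D.phi x = D.phi x * D.phi 1
  rw [D.phi_mul x 1, mul_one]

theorem commute_a_e (i j : Fin n) : Commute D.a (D.e i j) := D.commute_a_phi _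

theorem commute_p_e (i j : Fin n) : Commute D.p (D.e i j) := by
  rw [p_eq]
  exact (Commute.one_left _).sub_left (D.commute_a_e i j)

theorem isSelfAdjoint_a : IsSelfAdjoint D.a := by
  show star (D.phi 1) = D.phi 1
  rw [← D.phi_star, star_one]

theorem isSelfAdjoint_p : IsSelfAdjoint D.p := IsSelfAdjoint.star_mul_self D.v

theorem e00_v' : D.e 0 0 * D.v = D.v := D.e00_v

theorem R_zero : D.R 0 = D.v := D.e00_v'

theorem e_mul_v {i j : Fin n} (h : j ≠ 0) : D.e i j * D.v = 0 := by
  rw [← D.e00_v', ← mul_assoc, e_mul, if_neg h, zero_mul]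

theorem a_mul_v : D.a * D.v = D.v := by
  conv_lhs => rw [← D.e00_v', ← mul_assoc]
  rw [show D.a * D.e 0 0 = D.e 0 0 * D.e 0 0 by rw [e_mul, if_pos rfl],
    mul_assoc, D.e00_v', D.e00_v']

theorem p_mul_v : D.p * D.v = 0 := by rw [p_eq, sub_mul, one_mul, a_mul_v, sub_self]

theorem star_v_mul_p : star D.v * D.p = 0 := by
  have h := congrArg star D.p_mul_v
  rwa [star_mul, D.isSelfAdjoint_p.star_eq, star_zero] at h

theorem a_mul_R (i : Fin n) : D.a * D.R i = D.R i := by
  rw [R, ← mul_assoc, (D.commute_a_e i 0).eq, mul_assoc, a_mul_v]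

theorem p_mul_R (i : Fin n) : D.p * D.R i = 0 := by
  rw [R, ← mul_assoc, (D.commute_p_e i 0).eq, mul_assoc, p_mul_v, mul_zero]

theorem star_R (i : Fin n) : star (D.R i) = star D.v * D.e 0 i := by
  rw [R, star_mul, star_e]

theorem star_R_mul_p (i : Fin n) : star (D.R i) * D.p = 0 := by
  have h := congrArg star (D.p_mul_R i)
  rwa [star_mul, D.isSelfAdjoint_p.star_eq, star_zero] at h

theorem star_R_mul_R (i j : Fin n) : star (D.R i) * D.R j = if i = j then D.p else 0 := by
  rw [star_R, R, mul_assoc, ← mul_assoc (D.e 0 i), e_mul]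
  split_ifs with h
  · rw [mul_assoc D.a, D.e00_v', a_mul_v, p]
  · rw [zero_mul, mul_zero]

theorem star_R_mul_v (i : Fin n) : star (D.R i) * D.v = if i = 0 then D.p else 0 := by
  conv_lhs => rw [← D.R_zero]
  exact D.star_R_mul_R i 0

theorem v_mul_of_p_mul {x : B} (h : D.p * x = 0) : D.v * x = 0 := by
  rw [← CStarRing.star_mul_self_eq_zero_iff, star_mul, mul_assoc, ← mul_assoc (star D.v)]
  change star x * (D.p * x) = 0
  rw [h, mul_zero]

theorem v_mul_R (i : Fin n) : D.v * D.R i = 0 := D.v_mul_of_p_mul (D.p_mul_R i)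

theorem v_mul_q : D.v * D.q = 0 := by
  simp only [q, Finset.mul_sum, ← mul_assoc, v_mul_R, zero_mul, Finset.sum_const_zero]

theorem p_mul_q : D.p * D.q = 0 := by
  simp only [q, Finset.mul_sum, ← mul_assoc, p_mul_R, zero_mul, Finset.sum_const_zero]

theorem isSelfAdjoint_q : IsSelfAdjoint D.q := by
  rw [q]
  exact isSelfAdjoint_sum _ fun i _ => IsSelfAdjoint.mul_star_self _

theorem q_mul_p : D.q * D.p = 0 := by
  have h := congrArg star D.p_mul_q
  rwa [star_mul, D.isSelfAdjoint_p.star_eq, D.isSelfAdjoint_q.star_eq, star_zero] at h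

theorem q_mul_R (i : Fin n) : D.q * D.R i = D.R i * D.p := by
  simp only [q, Finset.sum_mul, mul_assoc, star_R_mul_R, mul_ite, mul_zero, Finset.sum_ite_eq',
    Finset.mem_univ, if_true]

theorem isSelfAdjoint_c : IsSelfAdjoint D.c := D.isSelfAdjoint_p.add D.isSelfAdjoint_q

theorem c_mul_p : D.c * D.p = D.p * D.p := by rw [c, add_mul, q_mul_p, add_zero]

theorem p_mul_c : D.p * D.c = D.p * D.p := by rw [c, mul_add, p_mul_q, add_zero]

theorem c_mul_R (i : Fin n) : D.c * D.R i = D.R i * D.p := by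
  rw [c, add_mul, p_mul_R, q_mul_R, zero_add]

theorem c_mul_v : D.c * D.v = D.v * D.p := by
  conv_lhs => rw [← D.R_zero]
  rw [c_mul_R, R_zero]

theorem v_mul_c : D.v * D.c = D.v * D.p := by rw [c, mul_add, v_mul_q, add_zero]

theorem commute_c_v : Commute D.c D.v := D.c_mul_v.trans D.v_mul_c.symm

theorem commute_c_star_v : Commute D.c (star D.v) := by
  have h : star D.c * star D.v = star D.v * star D.c := by
    rw [← star_mul, ← star_mul, D.commute_c_v.eq]
  rwa [D.isSelfAdjoint_c.star_eq] at h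

theorem e_mul_R (i k l : Fin n) : D.e k l * D.R i = if l = i then D.R k else 0 := by
  rw [R, ← mul_assoc, e_mul]
  split_ifs
  · rw [mul_assoc, ← R, a_mul_R]
  · rw [zero_mul]

theorem e_mul_q (k l : Fin n) : D.e k l * D.q = D.R k * star (D.R l) := by
  simp only [q, Finset.mul_sum, ← mul_assoc, e_mul_R, ite_mul, zero_mul, Finset.sum_ite_eq,
    Finset.mem_univ, if_true]

theorem commute_c_e (k l : Fin n) : Commute D.c (D.e k l) := by
  refine Commute.add_left (D.commute_p_e k l) ?_
  show D.q * D.e k l = D.e k l * D.q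
  have h := congrArg star (D.e_mul_q l k)
  rw [star_mul, star_mul, D.isSelfAdjoint_q.star_eq, star_e, star_star] at h
  rw [h, e_mul_q]

theorem commute_c_R (i : Fin n) : Commute D.c (D.R i) :=
  (D.commute_c_e i 0).mul_right D.commute_c_v

theorem R_mul_a (i : Fin n) : D.R i * D.a = (1 - D.c) * D.R i := by
  have h : D.a = 1 - D.p := by rw [p_eq, sub_sub_cancel]
  rw [h, mul_sub, mul_one, sub_mul, one_mul, c_mul_R]

theorem p_mul_a : D.p * D.a = D.p * (1 - D.c) := by
  have h : D.a = 1 - D.p := by rw [p_eq, sub_sub_cancel]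
  rw [h, mul_sub, mul_sub, mul_one, p_mul_c]

theorem c_sub_sq_nonneg : 0 ≤ D.c - D.c * D.c := by
  have hq : D.q * D.q = ∑ i, D.R i * D.p * star (D.R i) := by
    conv_lhs => arg 2; rw [q]
    simp only [Finset.mul_sum, ← mul_assoc, q_mul_R]
  have h : D.c - D.c * D.c = D.p * D.a + ∑ i, D.R i * D.a * star (D.R i) := by
    have hc : D.c * D.c = D.p * D.p + D.q * D.q := by
      simp only [c, add_mul, mul_add, p_mul_q, q_mul_p, add_zero, zero_add]
    have ha : D.a = 1 - D.p := by rw [p_eq, sub_sub_cancel]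
    rw [hc, hq, c, q, ha]
    simp only [mul_sub, sub_mul, mul_one, Finset.sum_sub_distrib]
    abel
  rw [h]
  have hpa : Commute D.p D.a := by
    rw [p_eq]; exact (Commute.one_left _).sub_left (Commute.refl _)
  exact add_nonneg (hpa.mul_nonneg (star_mul_self_nonneg _) D.phi_nonneg)
    (Finset.sum_nonneg fun i _ => star_right_conjugate_nonneg D.phi_nonneg _)

theorem spectrum_c (z : ℂ) (hz : z ∈ spectrum ℂ D.c) :
    z = (z.re : ℂ) ∧ 0 ≤ z.re ∧ z.re ≤ 1 := by
  have hre := D.isSelfAdjoint_c.mem_spectrum_eq_re hz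
  have hR : z.re ∈ spectrum ℝ D.c := by
    rw [← spectrum.algebraMap_mem_iff (S := ℂ)]
    rwa [Complex.coe_algebraMap, ← hre]
  have h := D.c_sub_sq_nonneg
  have he : D.c - D.c * D.c = cfc (fun x : ℝ => x - x * x) D.c := by
    rw [cfc_sub (fun x : ℝ => x) (fun x => x * x) D.c continuous_id.continuousOn
        (continuous_id.mul continuous_id).continuousOn,
      cfc_mul (fun x : ℝ => x) (fun x => x) D.c continuous_id.continuousOn
        continuous_id.continuousOn,
      cfc_id' ℝ D.c D.isSelfAdjoint_c]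
  rw [he, cfc_nonneg_iff (fun x : ℝ => x - x * x) D.c
    (continuous_id.sub (continuous_id.mul continuous_id)).continuousOn D.isSelfAdjoint_c] at h
  have := h _ hR
  refine ⟨hre, ?_, ?_⟩ <;> nlinarith

/-- An element annihilating the central element on the right annihilates `v⋆` and the columns. -/
theorem mul_eq_zero_of_mul_c {z : B} (hz : z * D.c = 0) :
    z * star D.v = 0 ∧ ∀ i, z * D.R i = 0 := by
  have h : z * D.p * star z + ∑ i, z * (D.R i * star (D.R i)) * star z = 0 := by
    rw [← Finset.sum_mul, ← Finset.mul_sum, ← add_mul, ← mul_add]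
    change z * D.c * star z = 0
    rw [hz, zero_mul]
  have h1 : 0 ≤ z * D.p * star z :=
    star_right_conjugate_nonneg (star_mul_self_nonneg D.v) _
  have h2 : ∀ i, 0 ≤ z * (D.R i * star (D.R i)) * star z := fun i =>
    star_right_conjugate_nonneg (mul_star_self_nonneg _) _
  obtain ⟨h3, h4⟩ := (add_eq_zero_iff_of_nonneg h1 (Finset.sum_nonneg fun i _ => h2 i)).1 h
  refine ⟨?_, fun i => ?_⟩
  · rw [← CStarRing.mul_star_self_eq_zero_iff, star_mul, star_star]
    rw [p] at h3
    simpa only [mul_assoc] using h3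
  · rw [← CStarRing.mul_star_self_eq_zero_iff, star_mul]
    have := (Finset.sum_eq_zero_iff_of_nonneg fun i _ => h2 i).1 h4 i (Finset.mem_univ i)
    simpa only [mul_assoc] using this

theorem mul_p_eq_zero_of_mul_c {z : B} (hz : z * D.c = 0) : z * D.p = 0 := by
  rw [p, ← mul_assoc, (D.mul_eq_zero_of_mul_c hz).1, zero_mul]

end Gen

end Vale.Agent.P101.Universal
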