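import Vale.Agent.P101.Drop.Defs
import Vale.Agent.P101.Involution
import Vale.Agent.P101.Universal.Relations

/-!
# The model of the universal pair in the dimension drop algebra

In a rotated frame the model is `φ_t x = x ⊗ (1 - t e_{nn})`, `v_t = √t ∑ⱼ e_{0j} ⊗ e_{jn}`.
-/

open scoped ComplexOrder

noncomputable section

namespace Vale.Agent.P101.Universal

/-- The index set of `M_n ⊗ M_{n+1}`. -/
abbrev Idx (n : ℕ) := Fin n × Fin (n + 1)

/-- `M_n ⊗ M_{n+1}`. -/
abbrev Big (n : ℕ) := CStarMatrix (Idx n) (Idx n) ℂ

/-- The fields of matrices over the interval. -/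
abbrev Field (n : ℕ) := C(unitInterval, Big n)

variable {n : ℕ}

theorem continuous_cmat {X ι : Type*} [Fintype ι] [TopologicalSpace X]
    {f : X → CStarMatrix ι ι ℂ} (h : ∀ i j, Continuous fun t => f t i j) : Continuous f :=
  continuous_pi fun i => continuous_pi (h i)

theorem ext_entry {f g : Field n} (h : ∀ t x y, f t x y = g t x y) : f = g :=
  ContinuousMap.ext fun t => CStarMatrix.ext (h t)

theorem continuous_entry {f : unitInterval → Big n} (hf : Continuous f) (i j : Idx n) :
    Continuous fun t => f t i j :=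
  (continuous_apply j).comp ((continuous_apply i).comp hf)

/-- A matrix from its entries. -/
def mk {ι : Type*} (f : ι → ι → ℂ) : CStarMatrix ι ι ℂ := CStarMatrix.ofMatrix f

@[simp] theorem mk_apply {ι : Type*} (f : ι → ι → ℂ) (i j : ι) : mk f i j = f i j := rfl

theorem munit_mul_apply {ι : Type*} [Fintype ι] [DecidableEq ι] (i j : ι)
    (M : CStarMatrix ι ι ℂ) (x y : ι) : (munit i j * M) x y = if i = x then M j y else 0 := by
  rw [CStarMatrix.mul_apply]
  simp [munit_apply, ite_and]

/-! ### Amplifications along an equivalence -/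

variable {ι κ : Type*} [DecidableEq κ] (σ : Idx n ≃ ι × κ)

/-- `y ⊗ 1` along `σ`. -/
def amp (y : CStarMatrix ι ι ℂ) : Big n :=
  mk fun x x' => if (σ x).2 = (σ x').2 then y (σ x).1 (σ x').1 else 0

theorem amp_apply (y : CStarMatrix ι ι ℂ) (x x' : Idx n) :
    amp σ y x x' = if (σ x).2 = (σ x').2 then y (σ x).1 (σ x').1 else 0 := rfl

theorem amp_zero : amp σ (0 : CStarMatrix ι ι ℂ) = 0 :=
  CStarMatrix.ext fun x x' => by
    show amp σ (0 : CStarMatrix ι ι ℂ) x x' = 0
    rw [amp_apply]; simp [CStarMatrix.zero_apply]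

theorem amp_add (y y' : CStarMatrix ι ι ℂ) : amp σ (y + y') = amp σ y + amp σ y' :=
  CStarMatrix.ext fun x x' => by
    simp only [amp_apply, CStarMatrix.add_apply]; split_ifs <;> simp

theorem amp_smul (r : ℂ) (y : CStarMatrix ι ι ℂ) : amp σ (r • y) = r • amp σ y :=
  CStarMatrix.ext fun x x' => by
    simp only [amp_apply, CStarMatrix.smul_apply]; split_ifs <;> simp

theorem amp_one [DecidableEq ι] : amp σ (1 : CStarMatrix ι ι ℂ) = 1 :=
  CStarMatrix.ext fun x x' => by
    simp only [amp_apply, CStarMatrix.one_apply]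
    by_cases h : x = x'
    · subst h; simp
    · rw [if_neg h]
      split_ifs with h1 h2
      · exact absurd (σ.injective (Prod.ext h2 h1)) h
      · rfl
      · rfl

theorem amp_star (y : CStarMatrix ι ι ℂ) : amp σ (star y) = star (amp σ y) :=
  CStarMatrix.ext fun x x' => by
    simp only [amp_apply, CStarMatrix.star_apply, eq_comm (a := (σ x).2)]
    split_ifs <;> simp

theorem amp_mul [Fintype ι] [Fintype κ] (y y' : CStarMatrix ι ι ℂ) :
    amp σ (y * y') = amp σ y * amp σ y' :=
  CStarMatrix.ext fun x x' => by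
    rw [CStarMatrix.mul_apply, ← Equiv.sum_comp σ.symm]
    simp only [amp_apply, Equiv.apply_symm_apply, Fintype.sum_prod_type, CStarMatrix.mul_apply,
      mul_ite, ite_mul, mul_zero, zero_mul, Finset.sum_ite_eq', Finset.mem_univ, if_true]
    by_cases h : (σ x).2 = (σ x').2 <;> simp [h]

theorem amp_sum {α : Type*} (s : Finset α) (y : α → CStarMatrix ι ι ℂ) :
    amp σ (∑ i ∈ s, y i) = ∑ i ∈ s, amp σ (y i) :=
  map_sum ({ toFun := amp σ, map_zero' := amp_zero σ, map_add' := amp_add σ } :
    CStarMatrix ι ι ℂ →+ Big n) y s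

/-- The corner of a matrix over `ι × κ` at a chosen point of `κ`. -/
def rest (k0 : κ) (M : Big n) : CStarMatrix ι ι ℂ :=
  mk fun a d => M (σ.symm (a, k0)) (σ.symm (d, k0))

theorem rest_amp (k0 : κ) (y : CStarMatrix ι ι ℂ) : rest σ k0 (amp σ y) = y :=
  CStarMatrix.ext fun a d => by
    show amp σ y (σ.symm (a, k0)) (σ.symm (d, k0)) = _
    simp [amp_apply]

theorem continuous_amp [Fintype ι] : Continuous (amp σ) := by
  refine continuous_cmat fun x x' => ?_
  simp only [amp_apply]
  split_ifs
  · exact (continuous_apply _).comp (continuous_apply _)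
  · exact continuous_const

theorem continuous_rest [Fintype ι] (k0 : κ) : Continuous (rest σ k0) :=
  continuous_cmat fun a d => show Continuous fun M : Big n => M (σ.symm (a, k0)) (σ.symm (d, k0))
    from (continuous_apply _).comp (continuous_apply _)

/-! ### The two ends -/

/-- The involution exchanging the first `n` levels of the second factor with the first factor. -/
def flipIdx (x : Idx n) : Idx n :=
  Fin.lastCases (x.1, Fin.last n) (fun a => (a, Fin.castSucc x.1)) x.2

theorem flipIdx_last (i : Fin n) : flipIdx (i, Fin.last n) = (i, Fin.last n) := by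
  simp [flipIdx]

theorem flipIdx_castSucc (i a : Fin n) :
    flipIdx (i, Fin.castSucc a) = (a, Fin.castSucc i) := by
  simp [flipIdx]

theorem flipIdx_flipIdx (x : Idx n) : flipIdx (flipIdx x) = x := by
  obtain ⟨i, k⟩ := x
  induction k using Fin.lastCases with
  | last => rw [flipIdx_last, flipIdx_last]
  | cast a => rw [flipIdx_castSucc, flipIdx_castSucc]

/-- The identification at the left end. -/
def leftE (n : ℕ) : Idx n ≃ Fin n × Fin (n + 1) := Equiv.refl _

/-- The identification at the right end. -/
def rightE (n : ℕ) : Idx n ≃ Fin (n + 1) × Fin n where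
  toFun x := ((flipIdx x).2, (flipIdx x).1)
  invFun z := flipIdx (z.2, z.1)
  left_inv x := flipIdx_flipIdx x
  right_inv z := by simp [flipIdx_flipIdx]

/-! ### The generators -/

/-- The weight of a level. -/
def wgt (a : Fin (n + 1)) (t : unitInterval) : ℂ := if a = Fin.last n then 1 - (t : ℝ) else 1

theorem continuous_wgt (a : Fin (n + 1)) : Continuous (wgt a) := by
  unfold wgt; split_ifs <;> fun_prop

/-- The model order zero map. -/
def phiM (x : Mat n) : Field n :=
  ⟨fun t => mk fun i j => if i.2 = j.2 then x i.1 j.1 * wgt i.2 t else 0,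
    continuous_cmat fun i j => by
      show Continuous fun t => if i.2 = j.2 then x i.1 j.1 * wgt i.2 t else 0
      split_ifs
      · exact continuous_const.mul (continuous_wgt _)
      · exact continuous_const⟩

theorem phiM_apply (x : Mat n) (t : unitInterval) (i j : Idx n) :
    phiM x t i j = if i.2 = j.2 then x i.1 j.1 * wgt i.2 t else 0 := rfl

theorem star_phiM (x : Mat n) : star (phiM x) = phiM (star x) :=
  ext_entry fun t i j => by
    rw [ContinuousMap.star_apply, CStarMatrix.star_apply, phiM_apply, phiM_apply,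
      CStarMatrix.star_apply]
    by_cases h : i.2 = j.2
    · rw [if_pos h, if_pos h.symm, star_mul', h]
      congr 1
      rw [wgt]; split_ifs <;> simp
    · rw [if_neg h, if_neg (Ne.symm h), star_zero]

theorem phiM_zero (x : Mat n) : phiM x 0 = amp (leftE n) x :=
  CStarMatrix.ext fun i j => by
    rw [phiM_apply, amp_apply]
    by_cases h : i.2 = j.2 <;> simp [leftE, wgt, h]

/-- The corner embedding of `M_n` into `M_{n+1}`. -/
def cornerEmb (x : Mat n) : CStarMatrix (Fin (n + 1)) (Fin (n + 1)) ℂ :=
  mk fun a b =>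
    Fin.lastCases 0 (fun i => Fin.lastCases 0 (fun j => x i j) b) a

theorem cornerEmb_castSucc (x : Mat n) (i j : Fin n) :
    cornerEmb x (Fin.castSucc i) (Fin.castSucc j) = x i j := by
  simp [cornerEmb]

theorem cornerEmb_last_left (x : Mat n) (b : Fin (n + 1)) :
    cornerEmb x (Fin.last n) b = 0 := by
  simp [cornerEmb]

theorem cornerEmb_last_right (x : Mat n) (a : Fin (n + 1)) :
    cornerEmb x a (Fin.last n) = 0 := by
  induction a using Fin.lastCases <;> simp [cornerEmb]

theorem phiM_one (x : Mat n) : phiM x 1 = amp (rightE n) (cornerEmb x) :=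
  CStarMatrix.ext fun i j => by
    obtain ⟨i, a⟩ := i
    obtain ⟨j, b⟩ := j
    rw [phiM_apply, amp_apply]
    induction a using Fin.lastCases <;> induction b using Fin.lastCases <;>
      simp [rightE, flipIdx_last, flipIdx_castSucc, wgt, cornerEmb_castSucc, cornerEmb_last_left,
        cornerEmb_last_right, (Fin.castSucc_lt_last _).ne, (Fin.castSucc_lt_last _).ne']

variable [NeZero n]

/-- The support of the model partial isometry. -/
def SuppV (i j : Idx n) : Prop :=
  i.1 = 0 ∧ j.2 = Fin.last n ∧ i.2 = Fin.castSucc j.1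

instance (i j : Idx n) : Decidable (SuppV i j) := by unfold SuppV; infer_instance

/-- The square root of the parameter. -/
def sqC : C(unitInterval, ℂ) :=
  ⟨fun t => (Real.sqrt (t : ℝ) : ℂ), by fun_prop⟩

/-- The parameter. -/
def idC : C(unitInterval, ℂ) := ⟨fun t => ((t : ℝ) : ℂ), by fun_prop⟩

theorem sqC_mul_self : sqC * sqC = idC := by
  ext t
  show (Real.sqrt (t : ℝ) : ℂ) * (Real.sqrt (t : ℝ) : ℂ) = ((t : ℝ) : ℂ)
  rw [← Complex.ofReal_mul, Real.mul_self_sqrt t.2.1]

/-- The model partial isometry. -/
def vM : Field n :=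
  ⟨fun t => mk fun i j => if SuppV i j then sqC t else 0,
    continuous_cmat fun i j => by
      show Continuous fun t => if SuppV i j then sqC t else 0
      split_ifs
      · exact sqC.continuous
      · exact continuous_const⟩

theorem vM_apply (t : unitInterval) (i j : Idx n) :
    vM t i j = if SuppV i j then sqC t else 0 := rfl

theorem vM_zero : vM (n := n) 0 = amp (leftE n) 0 := by
  rw [amp_zero]
  exact CStarMatrix.ext fun i j => by
    rw [vM_apply, CStarMatrix.zero_apply]
    simp [sqC]

theorem vM_one :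
    vM (n := n) 1 = amp (rightE n) (munit (Fin.castSucc 0) (Fin.last n)) :=
  CStarMatrix.ext fun i j => by
    obtain ⟨i, a⟩ := i
    obtain ⟨j, b⟩ := j
    rw [vM_apply, amp_apply, munit_apply]
    induction a using Fin.lastCases <;> induction b using Fin.lastCases <;>
      simp [rightE, flipIdx_last, flipIdx_castSucc, SuppV, sqC,
        (Fin.castSucc_lt_last _).ne, (Fin.castSucc_lt_last _).ne', ite_and, eq_comm, NeZero.ne n]
    all_goals split_ifs <;> rfl

/-- The scalar fields. -/
def scal (n : ℕ) : C(unitInterval, ℂ) →⋆ₐ[ℂ] Field n where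
  toFun k := ⟨fun t => k t • (1 : Big n), k.continuous.smul continuous_const⟩
  map_one' := by ext1 t; simp
  map_mul' k l := by ext1 t; simp [smul_smul, mul_comm]
  map_zero' := by ext1 t; simp
  map_add' k l := by ext1 t; simp [add_smul]
  commutes' r := by ext1 t; simp [Algebra.algebraMap_eq_smul_one]
  map_star' k := by ext1 t; simp [star_smul]

theorem scal_apply (k : C(unitInterval, ℂ)) (t : unitInterval) :
    scal n k t = k t • (1 : Big n) := rfl

theorem continuous_scal : Continuous (scal n) := by
  exact AddMonoidHomClass.continuous_of_bound (scal n) 1 fun k => by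
    rw [one_mul]; exact NonUnitalStarAlgHom.norm_apply_le (scal n) k

/-- The permutation matrix exchanging the two frames at the right end. -/
def flipMat (n : ℕ) : Big n := mk fun x y => if flipIdx x = y then 1 else 0

/-- The rotation between the two frames. -/
def rotPath (n : ℕ) : Field n :=
  ⟨fun t => HalfFlip.invPath
      (flipMat n) (t : ℝ),
    (HalfFlip.continuous_invPath _).comp continuous_subtype_val⟩

theorem flip_mul_apply (M : Big n) (x y : Idx n) :
    ((flipMat n) * M) x y =
      M (flipIdx x) y := by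
  rw [CStarMatrix.mul_apply]
  simp [flipMat]

theorem flip_star :
    IsSelfAdjoint (flipMat n) :=
  CStarMatrix.ext fun x y => by
    rw [CStarMatrix.star_apply]
    simp only [flipMat, mk_apply]
    by_cases h : flipIdx y = x
    · have h' : flipIdx x = y := by rw [← h, flipIdx_flipIdx]
      simp [h, h']
    · have h' : flipIdx x ≠ y := fun e => h (by rw [← e, flipIdx_flipIdx])
      simp [h, h']

theorem flip_sq :
    (flipMat n) *
      (flipMat n) = 1 :=
  CStarMatrix.ext fun x y => by
    rw [flip_mul_apply]
    simp [flipMat, flipIdx_flipIdx, CStarMatrix.one_apply]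

theorem rotPath_mem : rotPath n ∈ unitary (Field n) := by
  have h := fun t : unitInterval => HalfFlip.invPath_mem_unitary flip_star (flip_sq (n := n)) (t : ℝ)
  exact ⟨ContinuousMap.ext fun t => (h t).1, ContinuousMap.ext fun t => (h t).2⟩

/-- Passing to the rotated frame. -/
def toFrame (n : ℕ) [NeZero n] : Field n ≃⋆ₐ[ℂ] Field n :=
  Unitary.conjStarAlgAut ℂ (Field n) ⟨rotPath n, rotPath_mem⟩

theorem toFrame_zero (f : Drop.dropAlg n (n + 1) ℂ) :
    toFrame n f.1 0 = amp (leftE n) (rest (leftE n) 0 (toFrame n f.1 0)) := by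
  have h : toFrame n f.1 0 = f.1 0 := by
    show rotPath n 0 * f.1 0 * star (rotPath n 0) = f.1 0
    simp [rotPath, HalfFlip.invPath_zero]
  obtain ⟨m, hm⟩ := f.2.1
  have : f.1 0 = amp (leftE n) (mk m) :=
    CStarMatrix.ext fun x y => by
      rw [amp_apply, hm]
      rfl
  rw [h, this, rest_amp]

theorem toFrame_one (f : Drop.dropAlg n (n + 1) ℂ) :
    toFrame n f.1 1 = amp (rightE n) (rest (rightE n) 0 (toFrame n f.1 1)) := by
  obtain ⟨m, hm⟩ := f.2.2
  have h : toFrame n f.1 1 = amp (rightE n) (mk m) := by
    show rotPath n 1 * f.1 1 * star (rotPath n 1) = _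
    simp only [rotPath, ContinuousMap.coe_mk, Set.Icc.coe_one, HalfFlip.invPath_one,
      flip_star.star_eq]
    refine CStarMatrix.ext fun x y => ?_
    rw [mul_assoc, flip_mul_apply, CStarMatrix.mul_apply,
      Finset.sum_eq_single (flipIdx y) (fun z _ hz => ?_) (fun h => absurd (Finset.mem_univ _) h)]
    · rw [amp_apply, hm]
      by_cases hh : (flipIdx x).1 = (flipIdx y).1 <;> simp [flipMat, flipIdx_flipIdx, rightE, hh]
    · have h' : flipIdx z ≠ y := fun e => hz (by rw [← e, flipIdx_flipIdx])
      simp [flipMat, h']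
  rw [h, rest_amp]

end Vale.Agent.P101.Universal
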