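import Vale.Agent.P101.Universal.Model

/-!
# The rules linking the generators to their models

A pair of an element and a field of matrices is good when the element acts on three families of
columns through the matrix entries; an element that is good with the zero field vanishes.
-/

open scoped ComplexOrder

noncomputable section

namespace Vale.Agent.P101.Universal

/-- A closed star subalgebra of the continuous functions containing the parameter is everything. -/
theorem mem_of_idC_mem {S : StarSubalgebra ℂ C(unitInterval, ℂ)}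
    (hc : IsClosed (S : Set C(unitInterval, ℂ))) (h : idC ∈ S) (k : C(unitInterval, ℂ)) :
    k ∈ S := by
  have hs : S.SeparatesPoints := fun x y hxy =>
    ⟨idC, ⟨idC, h, rfl⟩, fun e => hxy (Subtype.ext (Complex.ofReal_injective e))⟩
  have hk : k ∈ S.topologicalClosure := by
    rw [ContinuousMap.starSubalgebra_topologicalClosure_eq_top_of_separatesPoints S hs]
    trivial
  exact StarSubalgebra.topologicalClosure_minimal le_rfl hc hk

theorem star_idC : star idC = idC := by
  ext t
  exact Complex.conj_ofReal _

theorem star_sqC : star sqC = sqC := by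
  ext t
  exact Complex.conj_ofReal _

variable {n : ℕ}

/-- An entry of a field of matrices. -/
def entry (x y : Idx n) (g : Field n) : C(unitInterval, ℂ) :=
  ⟨fun t => g t x y, continuous_entry g.continuous x y⟩

theorem entry_apply (x y : Idx n) (g : Field n) (t : unitInterval) : entry x y g t = g t x y := rfl

theorem continuous_entry_map (x y : Idx n) : Continuous (entry x y) :=
  ContinuousMap.continuous_postcomp (⟨fun M : Big n => M x y,
    (continuous_apply y).comp (continuous_apply x)⟩ : C(Big n, ℂ))

theorem entry_mul (x y : Idx n) (g g' : Field n) :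
    entry x y (g * g') = ∑ z, entry x z g * entry z y g' := by
  ext t
  simp [entry_apply, CStarMatrix.mul_apply, ContinuousMap.sum_apply]

theorem entry_add (x y : Idx n) (g g' : Field n) :
    entry x y (g + g') = entry x y g + entry x y g' := by
  ext t; simp [entry_apply]

theorem entry_smul_one (x y : Idx n) (r : ℂ) :
    entry x y (r • (1 : Field n)) = if x = y then r • (1 : C(unitInterval, ℂ)) else 0 := by
  ext t
  by_cases h : x = y <;> simp [entry_apply, h]

variable [NeZero n] {B : Type*} [CStarAlgebra B] [PartialOrder B] [StarOrderedRing B]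

namespace Gen

variable (D : Gen n B)

/-- The real part on the spectrum of the central element. -/
def projC : C(spectrum ℂ D.c, unitInterval) :=
  ⟨fun z => ⟨(z : ℂ).re, (D.spectrum_c z z.2).2⟩, by fun_prop⟩

/-- Functional calculus of the central element. -/
def Gam : C(unitInterval, ℂ) →⋆ₐ[ℂ] B :=
  (cfcHom D.isSelfAdjoint_c.isStarNormal).comp (ContinuousMap.compStarAlgHom' ℂ ℂ D.projC)

theorem continuous_Gam : Continuous D.Gam :=
  AddMonoidHomClass.continuous_of_bound D.Gam 1 fun k => by
    rw [one_mul]; exact NonUnitalStarAlgHom.norm_apply_le D.Gam k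

theorem Gam_idC : D.Gam idC = D.c := by
  show cfcHom D.isSelfAdjoint_c.isStarNormal (idC.comp D.projC) = D.c
  rw [show idC.comp D.projC = (ContinuousMap.id ℂ).restrict (spectrum ℂ D.c) from
    ContinuousMap.ext fun z => (D.spectrum_c z z.2).1.symm]
  exact cfcHom_id _

theorem commute_Gam {b : B} (h : Commute D.c b) (h' : Commute D.c (star b))
    (k : C(unitInterval, ℂ)) : Commute b (D.Gam k) := by
  have := mem_of_idC_mem (S := (StarSubalgebra.centralizer ℂ {b}).comap D.Gam)
    ((Set.isClosed_centralizer _).preimage D.continuous_Gam) ?_ k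
  · rw [StarSubalgebra.mem_comap, StarSubalgebra.mem_centralizer_iff] at this
    exact (this b rfl).1
  · rw [StarSubalgebra.mem_comap, StarSubalgebra.mem_centralizer_iff, Gam_idC]
    rintro _ rfl
    exact ⟨h.eq.symm, h'.eq.symm⟩

theorem commute_Gam_e (i j : Fin n) (k : C(unitInterval, ℂ)) : Commute (D.e i j) (D.Gam k) :=
  D.commute_Gam (D.commute_c_e i j) (by rw [D.star_e]; exact D.commute_c_e j i) k

theorem commute_Gam_v (k : C(unitInterval, ℂ)) : Commute D.v (D.Gam k) :=
  D.commute_Gam D.commute_c_v D.commute_c_star_v k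

theorem commute_Gam_star_v (k : C(unitInterval, ℂ)) : Commute (star D.v) (D.Gam k) :=
  D.commute_Gam D.commute_c_star_v (by rw [star_star]; exact D.commute_c_v) k

theorem commute_Gam_c (k : C(unitInterval, ℂ)) : Commute D.c (D.Gam k) :=
  D.commute_Gam (Commute.refl _) (by rw [D.isSelfAdjoint_c.star_eq]) k

theorem Gam_sqC_mul : D.Gam sqC * D.Gam sqC = D.c := by
  rw [← map_mul, sqC_mul_self, Gam_idC]

theorem commute_c_p : Commute D.c D.p := D.c_mul_p.trans D.p_mul_c.symm

/-! ### The columns -/

/-- The columns over the open interval. -/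
def T (x : Idx n) : B :=
  Fin.lastCases (D.e x.1 0 * D.p) (fun m => D.Gam sqC * (D.R x.1 * D.e m 0)) x.2

theorem T_last (i : Fin n) : D.T (i, Fin.last n) = D.e i 0 * D.p := by simp [T]

theorem T_cast (i m : Fin n) :
    D.T (i, Fin.castSucc m) = D.Gam sqC * (D.R i * D.e m 0) := by
  simp [T]

/-- The columns at the right end. -/
def Rx (a : Fin (n + 1)) : B := Fin.lastCases D.p D.R a

theorem Rx_last : D.Rx (Fin.last n) = D.p := by simp [Rx]

theorem Rx_cast (i : Fin n) : D.Rx (Fin.castSucc i) = D.R i := by simp [Rx]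

theorem Rx_zero : D.Rx 0 = D.v := by rw [← Fin.castSucc_zero', Rx_cast, R_zero]

theorem zero_eq_castSucc (b : Fin n) : (0 : Fin (n + 1)) = Fin.castSucc b ↔ b = 0 := by
  rw [← Fin.castSucc_zero', Fin.castSucc_inj, eq_comm]

/-- The rule at an end. -/
def EndOK {ι κ : Type*} [Fintype ι] [DecidableEq κ] (σ : Idx n ≃ ι × κ) (k0 : κ)
    (t0 : unitInterval) (ε : ℂ) (C : ι → B) (q : B × Field n) : Prop :=
  q.2 t0 = amp σ (rest σ k0 (q.2 t0)) ∧
    ∀ z : B, z * D.c = ε • z → ∀ a,
      z * (q.1 * C a) = ∑ d, rest σ k0 (q.2 t0) d a • (z * C d)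

/-- The rules. -/
def Good (q : B × Field n) : Prop :=
  (∀ k, Commute q.1 (D.Gam k)) ∧ (∀ y, q.1 * D.T y = ∑ x, D.Gam (entry x y q.2) * D.T x) ∧
    D.EndOK (leftE n) 0 0 0 (fun i => D.e i 0) q ∧ D.EndOK (rightE n) 0 1 1 D.Rx q

variable {ι κ : Type*} [Fintype ι] [DecidableEq κ] {σ : Idx n ≃ ι × κ} {k0 : κ}
  {t0 : unitInterval} {ε : ℂ} {C : ι → B}

theorem endOK_of {q : B × Field n} (y : CStarMatrix ι ι ℂ) (h : q.2 t0 = amp σ y)
    (hr : ∀ z : B, z * D.c = ε • z → ∀ a, z * (q.1 * C a) = ∑ d, y d a • (z * C d)) :
    D.EndOK σ k0 t0 ε C q := by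
  have e : rest σ k0 (q.2 t0) = y := by rw [h, rest_amp]
  exact ⟨by rw [e, h], fun z hz a => by rw [e]; exact hr z hz a⟩

theorem endOK_mul [Fintype κ] {q q' : B × Field n} (hc : Commute q.1 D.c)
    (h : D.EndOK σ k0 t0 ε C q) (h' : D.EndOK σ k0 t0 ε C q') :
    D.EndOK σ k0 t0 ε C (q * q') := by
  refine D.endOK_of (rest σ k0 (q.2 t0) * rest σ k0 (q'.2 t0)) ?_ fun z hz a => ?_
  · rw [amp_mul, ← h.1, ← h'.1]
    rfl
  · have hz' : z * q.1 * D.c = ε • (z * q.1) := by
      rw [mul_assoc, hc.eq, ← mul_assoc, hz, smul_mul_assoc]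
    show z * (q.1 * q'.1 * C a) = _
    rw [mul_assoc q.1, ← mul_assoc z, h'.2 _ hz' a]
    simp only [mul_assoc z, h.2 z hz, Finset.smul_sum, smul_smul]
    rw [Finset.sum_comm]
    refine Finset.sum_congr rfl fun d _ => ?_
    rw [← Finset.sum_smul, CStarMatrix.mul_apply]
    simp only [mul_comm]

theorem endOK_add {q q' : B × Field n} (h : D.EndOK σ k0 t0 ε C q)
    (h' : D.EndOK σ k0 t0 ε C q') : D.EndOK σ k0 t0 ε C (q + q') := by
  refine D.endOK_of (rest σ k0 (q.2 t0) + rest σ k0 (q'.2 t0)) ?_ fun z hz a => ?_
  · rw [amp_add, ← h.1, ← h'.1]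
    rfl
  · show z * ((q.1 + q'.1) * C a) = _
    simp only [add_mul, mul_add, h.2 z hz a, h'.2 z hz a, CStarMatrix.add_apply, add_smul,
      Finset.sum_add_distrib]

theorem endOK_algebraMap [DecidableEq ι] (r : ℂ) :
    D.EndOK σ k0 t0 ε C (r • (1 : B × Field n)) := by
  refine D.endOK_of (r • 1) ?_ fun z _ a => ?_
  · rw [amp_smul, amp_one]
    rfl
  · show z * ((r • (1 : B)) * C a) = _
    simp [CStarMatrix.one_apply]

theorem isClosed_endOK : IsClosed {q | D.EndOK σ k0 t0 ε C q} := by
  have hv : Continuous fun q : B × Field n => q.2 t0 :=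
    (continuous_eval_const t0).comp continuous_snd
  have hr : Continuous fun q : B × Field n => rest σ k0 (q.2 t0) := (continuous_rest σ k0).comp hv
  simp only [EndOK, Set.setOf_and, Set.setOf_forall]
  refine (isClosed_eq hv ((continuous_amp σ).comp hr)).inter
    (isClosed_iInter fun z => isClosed_iInter fun _ => isClosed_iInter fun a => isClosed_eq
      (continuous_const.mul (continuous_fst.mul continuous_const))
      (continuous_finset_sum _ fun d _ => Continuous.smul ?_ continuous_const))
  exact ((continuous_apply a).comp (continuous_apply d)).comp hr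

theorem isClosed_good : IsClosed {q | D.Good q} := by
  simp only [Good, Set.setOf_and, Set.setOf_forall]
  refine (isClosed_iInter fun k => isClosed_eq (continuous_fst.mul continuous_const)
      (continuous_const.mul continuous_fst)).inter
    ((isClosed_iInter fun y => isClosed_eq (continuous_fst.mul continuous_const)
      (continuous_finset_sum _ fun x _ => ((D.continuous_Gam.comp
        ((continuous_entry_map x y).comp continuous_snd))).mul continuous_const)).inter
      (D.isClosed_endOK.inter D.isClosed_endOK))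

/-- The good pairs form a subalgebra. -/
def goodAlg : Subalgebra ℂ (B × Field n) where
  carrier := {q | D.Good q}
  mul_mem' := by
    rintro q q' ⟨hc, hm, hl, hr⟩ ⟨hc', hm', hl', hr'⟩
    refine ⟨fun k => (hc k).mul_left (hc' k), fun y => ?_, ?_, ?_⟩
    · show q.1 * q'.1 * D.T y = _
      rw [mul_assoc, hm', Finset.mul_sum]
      simp only [← mul_assoc, (hc _).eq]
      simp only [mul_assoc, hm, Finset.mul_sum]
      rw [Finset.sum_comm]
      refine Finset.sum_congr rfl fun x _ => ?_
      rw [Prod.snd_mul, entry_mul, map_sum, Finset.sum_mul]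
      refine Finset.sum_congr rfl fun z _ => ?_
      rw [← mul_assoc, ← map_mul, mul_comm (entry z y q'.2)]
    · exact D.endOK_mul (by rw [← D.Gam_idC]; exact hc _) hl hl'
    · exact D.endOK_mul (by rw [← D.Gam_idC]; exact hc _) hr hr'
  add_mem' := by
    rintro q q' ⟨hc, hm, hl, hr⟩ ⟨hc', hm', hl', hr'⟩
    refine ⟨fun k => (hc k).add_left (hc' k), fun y => ?_, D.endOK_add hl hl', D.endOK_add hr hr'⟩
    show (q.1 + q'.1) * D.T y = _
    simp only [add_mul, hm, hm', Prod.snd_add, entry_add, map_add, Finset.sum_add_distrib]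
  algebraMap_mem' r := by
    rw [Algebra.algebraMap_eq_smul_one]
    refine ⟨fun k => ?_, fun y => ?_, D.endOK_algebraMap r, D.endOK_algebraMap r⟩
    · exact (Commute.one_left _).smul_left r
    · show (r • (1 : B)) * D.T y = ∑ x, D.Gam (entry x y (r • (1 : Field n))) * D.T x
      simp [entry_smul_one, apply_ite, ite_mul]

theorem mem_goodAlg {q : B × Field n} : q ∈ D.goodAlg ↔ D.Good q := Iff.rfl

/-! ### The generators are good -/

theorem e_mul_p_ann {z : B} (hz : z * D.c = z) (k l : Fin n) : z * (D.e k l * D.p) = 0 := by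
  have hpa : z * D.p * D.a = 0 := by
    rw [mul_assoc, D.p_mul_a, ← mul_assoc, mul_sub, mul_one, mul_assoc z, ← D.commute_c_p.eq,
      ← mul_assoc, hz, sub_self]
  rw [← (D.commute_p_e k l).eq, ← mul_assoc, ← CStarRing.mul_star_self_eq_zero_iff]
  calc z * D.p * D.e k l * star (z * D.p * D.e k l)
      = z * D.p * (D.e k l * D.e l k) * star (z * D.p) := by
        rw [star_mul, D.star_e]; simp only [mul_assoc]
    _ = z * D.p * D.a * D.e k k * star (z * D.p) := by
        rw [D.e_mul, if_pos rfl]; simp only [mul_assoc]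
    _ = 0 := by rw [hpa, zero_mul, zero_mul]

theorem cornerEmb_munit (k l : Fin n) :
    cornerEmb (munit k l) = munit (Fin.castSucc k) (Fin.castSucc l) :=
  CStarMatrix.ext fun a b => by
    induction a using Fin.lastCases <;> induction b using Fin.lastCases <;>
      simp [cornerEmb_castSucc, cornerEmb_last_left, cornerEmb_last_right, munit_apply,
        (Fin.castSucc_lt_last _).ne]

theorem good_phi_munit (k l : Fin n) : D.Good (D.phi (munit k l), phiM (munit k l)) := by
  refine ⟨fun f => D.commute_Gam_e k l f, fun y => ?_,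
    D.endOK_of _ (phiM_zero _) fun z hz i => ?_, D.endOK_of _ (phiM_one _) fun z hz a => ?_⟩
  · have he : ∀ x y : Idx n, entry x y (phiM (munit k l)) =
        if x.2 = y.2 ∧ k = x.1 ∧ l = y.1 then
          (if y.2 = Fin.last n then 1 - idC else 1) else 0 := fun x y => by
      ext t
      rw [entry_apply, phiM_apply, munit_apply]
      by_cases h : x.2 = y.2
      · by_cases h' : k = x.1 ∧ l = y.1
        · simp only [h, h', if_true, and_self, one_mul, wgt]
          split_ifs <;> simp [idC]
        · simp [h, h']
      · simp [h]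
    show D.e k l * D.T y = _
    obtain ⟨i, a⟩ := y
    rw [Finset.sum_eq_single (k, a) (fun x _ hx => ?_) (fun h => absurd (Finset.mem_univ _) h)]
    · rw [he]
      by_cases hl : l = i
      · rw [if_pos ⟨rfl, rfl, hl⟩]
        induction a using Fin.lastCases with
        | last =>
          rw [if_pos rfl, map_sub, map_one, D.Gam_idC, T_last, T_last, ← mul_assoc, D.e_mul,
            if_pos hl, mul_assoc, ← (D.commute_p_e k 0).eq, ← mul_assoc (1 - D.c),
            ((Commute.one_left D.p).sub_left D.commute_c_p).eq, ← mul_assoc,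
            show D.a * D.p = D.p * (1 - D.c) by
              rw [← D.p_mul_a, p_eq, mul_sub, sub_mul, one_mul, mul_one]]
        | cast m =>
          rw [if_neg (Fin.castSucc_lt_last m).ne, map_one, one_mul, T_cast, T_cast, ← mul_assoc,
            (D.commute_Gam_e k l _).eq, mul_assoc, ← mul_assoc (D.e k l), D.e_mul_R, if_pos hl]
      · rw [if_neg (fun h => hl h.2.2), map_zero, zero_mul]
        induction a using Fin.lastCases with
        | last => rw [T_last, ← mul_assoc, D.e_mul, if_neg hl, zero_mul]
        | cast m =>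
          rw [T_cast, ← mul_assoc, (D.commute_Gam_e k l _).eq, mul_assoc, ← mul_assoc (D.e k l),
            D.e_mul_R, if_neg hl, zero_mul, mul_zero]
    · rw [he, if_neg (fun h => hx (Prod.ext h.2.1.symm h.1)), map_zero, zero_mul]
  · rw [zero_smul] at hz
    have hza : z * D.a = z := by
      rw [show D.a = 1 - D.p by rw [p_eq, sub_sub_cancel], mul_sub, mul_one,
        D.mul_p_eq_zero_of_mul_c hz, sub_zero]
    show z * (D.e k l * D.e i 0) = _
    rw [D.e_mul]
    by_cases hl : l = i
    · rw [if_pos hl, ← mul_assoc, hza]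
      simp [munit_apply, hl, ite_smul]
    · simp [munit_apply, hl]
  · rw [one_smul] at hz
    show z * (D.e k l * D.Rx a) = _
    rw [Fin.sum_univ_castSucc, cornerEmb_munit]
    induction a using Fin.lastCases with
    | last => simp [Rx_last, D.e_mul_p_ann hz, munit_apply, (Fin.castSucc_lt_last _).ne]
    | cast i =>
      by_cases hl : l = i <;>
        simp [Rx_cast, D.e_mul_R, munit_apply, hl, ite_smul, (Fin.castSucc_lt_last _).ne]

theorem good_v : D.Good (D.v, vM) := by
  refine ⟨D.commute_Gam_v, fun y => ?_, D.endOK_of 0 vM_zero fun z hz i => ?_,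
    D.endOK_of _ vM_one fun z hz a => ?_⟩
  · obtain ⟨j, b⟩ := y
    induction b using Fin.lastCases with
    | last =>
      rw [Finset.sum_eq_single (0, Fin.castSucc j) (fun x _ hx => ?_)
        (fun h => absurd (Finset.mem_univ _) h)]
      · rw [show entry (0, Fin.castSucc j) (j, Fin.last n) vM = sqC by
          ext t; simp [entry_apply, vM_apply, SuppV]]
        rw [T_last, T_cast, R_zero, ← mul_assoc (D.Gam sqC), D.Gam_sqC_mul, ← mul_assoc D.c,
          D.c_mul_v, mul_assoc D.v D.p, (D.commute_p_e j 0).eq]
      · rw [show entry x (j, Fin.last n) vM = 0 by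
          ext t
          rw [entry_apply, vM_apply, if_neg fun h => hx (Prod.ext h.1 h.2.2)]
          rfl, map_zero, zero_mul]
    | cast m =>
      rw [Finset.sum_eq_zero fun x _ => by
        rw [show entry x (j, Fin.castSucc m) vM = 0 by
          ext t
          rw [entry_apply, vM_apply, if_neg fun h => (Fin.castSucc_lt_last m).ne h.2.1]
          rfl, map_zero, zero_mul]]
      rw [T_cast, ← mul_assoc, (D.commute_Gam_v _).eq, mul_assoc, ← mul_assoc D.v, D.v_mul_R,
        zero_mul, mul_zero]
  · rw [zero_smul] at hz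
    have hzv : z * D.v = 0 := by rw [← D.R_zero]; exact (D.mul_eq_zero_of_mul_c hz).2 0
    show z * (D.v * D.e i 0) = _
    simp [← mul_assoc, hzv, CStarMatrix.zero_apply]
  · rw [one_smul] at hz
    show z * (D.v * D.Rx a) = _
    rw [Fin.sum_univ_castSucc]
    induction a using Fin.lastCases with
    | last =>
      rw [Rx_last, ← D.c_mul_v, ← mul_assoc, hz]
      rw [Finset.sum_eq_single (0 : Fin n) (fun b _ hb => by
          simp [munit_apply, zero_eq_castSucc, hb])
        (fun h => absurd (Finset.mem_univ _) h)]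
      simp [munit_apply, Rx_zero, NeZero.ne n]
    | cast i => simp [Rx_cast, D.v_mul_R, munit_apply, (Fin.castSucc_lt_last _).ne']

theorem good_star_v : D.Good (star D.v, star vM) := by
  have h0 : (star vM : Field n) 0 = amp (leftE n) 0 := by
    rw [ContinuousMap.star_apply, vM_zero, ← amp_star, star_zero]
  have h1 : (star vM : Field n) 1 = amp (rightE n) (munit (Fin.last n) (Fin.castSucc 0)) := by
    rw [ContinuousMap.star_apply, vM_one, ← amp_star, star_munit]
  refine ⟨D.commute_Gam_star_v, fun y => ?_, D.endOK_of 0 h0 fun z hz i => ?_,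
    D.endOK_of _ h1 fun z hz a => ?_⟩
  · obtain ⟨i, a⟩ := y
    have he : ∀ x, entry x (i, a) (star vM) = if SuppV (i, a) x then sqC else 0 := fun x => by
      ext t
      rw [entry_apply, ContinuousMap.star_apply, CStarMatrix.star_apply, vM_apply]
      split_ifs with h
      · exact Complex.conj_ofReal _
      · simp
    induction a using Fin.lastCases with
    | last =>
      rw [Finset.sum_eq_zero fun x _ => by
        rw [he, if_neg fun h => (Fin.castSucc_lt_last x.1).ne h.2.2.symm, map_zero, zero_mul]]
      rw [T_last, ← (D.commute_p_e i 0).eq, ← mul_assoc, D.star_v_mul_p, zero_mul]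
    | cast m =>
      show star D.v * D.T (i, Fin.castSucc m) = _
      rw [T_cast, ← mul_assoc, (D.commute_Gam_star_v _).eq, mul_assoc, ← mul_assoc (star D.v),
        show star D.v * D.R i = if i = 0 then D.p else 0 by
          conv_lhs => rw [← D.R_zero]
          rw [D.star_R_mul_R]
          simp only [eq_comm]]
      by_cases hi : i = 0
      · rw [Finset.sum_eq_single (m, Fin.last n) (fun x _ hx => ?_)
          (fun h => absurd (Finset.mem_univ _) h)]
        · have hs : SuppV (i, Fin.castSucc m) (m, Fin.last n) := ⟨hi, rfl, rfl⟩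
          rw [he, if_pos hs, if_pos hi, T_last, (D.commute_p_e m 0).eq]
        · rw [he, if_neg fun h => hx (Prod.ext (Fin.castSucc_injective _ h.2.2).symm h.2.1),
            map_zero, zero_mul]
      · rw [Finset.sum_eq_zero fun x _ => by rw [he, if_neg fun h => hi h.1, map_zero, zero_mul],
          if_neg hi, zero_mul, mul_zero]
  · rw [zero_smul] at hz
    show z * (star D.v * D.e i 0) = _
    simp [← mul_assoc, (D.mul_eq_zero_of_mul_c hz).1, CStarMatrix.zero_apply]
  · rw [one_smul] at hz
    show z * (star D.v * D.Rx a) = _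
    rw [Fin.sum_univ_castSucc]
    induction a using Fin.lastCases with
    | last =>
      simp [Rx_last, D.star_v_mul_p, munit_apply, (Fin.castSucc_lt_last _).ne', NeZero.ne n]
    | cast i =>
      rw [Rx_cast, show star D.v * D.R i = if i = 0 then D.p else 0 by
        conv_lhs => rw [← D.R_zero]
        rw [D.star_R_mul_R]
        simp only [eq_comm]]
      by_cases hi : i = 0 <;>
        simp [munit_apply, hi, Rx_last, (Fin.castSucc_lt_last _).ne',
          zero_eq_castSucc]

theorem good_c : D.Good (D.c, scal n idC) := by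
  have h0 : scal n idC 0 = amp (leftE n) 0 := by
    rw [amp_zero, scal_apply]; simp [idC]
  have h1 : scal n idC 1 = amp (rightE n) 1 := by
    rw [amp_one, scal_apply]; simp [idC]
  refine ⟨D.commute_Gam_c, fun y => ?_, D.endOK_of 0 h0 fun z hz i => ?_,
    D.endOK_of 1 h1 fun z hz a => ?_⟩
  · have he : ∀ x, entry x y (scal n idC) = if x = y then idC else 0 := fun x => by
      ext t
      rw [entry_apply, scal_apply]
      by_cases h : x = y <;> simp [h]
    simp [he, apply_ite, ite_mul, D.Gam_idC]
  · rw [zero_smul] at hz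
    simp [← mul_assoc, hz, CStarMatrix.zero_apply]
  · rw [one_smul] at hz
    simp [← mul_assoc, hz, CStarMatrix.one_apply, ite_smul]

/-! ### An element good with the zero field vanishes -/

theorem sum_T_mul_star :
    ∑ x, D.T x * star (D.T x) = D.c * (1 - D.c) * (D.c * (1 - D.c)) := by
  have hqc : Commute D.q (1 - D.c) := by
    have : Commute D.q D.c := by
      show D.q * D.c = D.c * D.q
      rw [c, mul_add, add_mul, q_mul_p, p_mul_q]
    exact (Commute.one_right _).sub_right this
  have hcc : Commute D.c (1 - D.c) := (Commute.one_right _).sub_right (Commute.refl _)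
  have hpc : Commute D.p (1 - D.c) := (Commute.one_right _).sub_right D.commute_c_p.symm
  have ha : ∀ x, ∑ m, x * D.e m m = x * D.a := fun x => by rw [← Finset.mul_sum, D.sum_e]
  have h1 : ∀ i, ∑ m : Fin n, D.T (i, Fin.castSucc m) * star (D.T (i, Fin.castSucc m)) =
      D.c * ((1 - D.c) * (D.R i * star (D.R i)) * (1 - D.c)) := fun i => by
    have e : ∀ m, D.T (i, Fin.castSucc m) * star (D.T (i, Fin.castSucc m)) =
        D.Gam sqC * (D.R i * D.a * D.e m m * star (D.R i)) * D.Gam sqC := fun m => by
      rw [T_cast, star_mul, star_mul, D.star_e, ← map_star, star_sqC]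
      simp only [mul_assoc]
      rw [← mul_assoc (D.e m 0), D.e_mul, if_pos rfl]
      simp only [mul_assoc]
    rw [Finset.sum_congr rfl fun m _ => e m, ← Finset.sum_mul, ← Finset.mul_sum, ← Finset.sum_mul,
      ha]
    have hR : D.a * star (D.R i) = star (D.R i) * (1 - D.c) := by
      have := congrArg star (D.R_mul_a i)
      rwa [star_mul, star_mul, D.isSelfAdjoint_a.star_eq, star_sub, star_one,
        D.isSelfAdjoint_c.star_eq] at this
    rw [mul_assoc (D.R i * D.a), hR, D.R_mul_a]
    have hG : ∀ k, Commute (D.Gam k) ((1 - D.c) * D.R i * (star (D.R i) * (1 - D.c))) := fun k => by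
      have hc1 : Commute (D.Gam k) (1 - D.c) :=
        (Commute.one_right _).sub_right (D.commute_Gam_c k).symm
      have hR1 : Commute (D.Gam k) (D.R i) :=
        ((D.commute_Gam_e i 0 k).symm).mul_right (D.commute_Gam_v k).symm
      have hR2 : Commute (D.Gam k) (star (D.R i)) := by
        rw [D.star_R]
        exact ((D.commute_Gam_star_v k).symm).mul_right (D.commute_Gam_e 0 i k).symm
      exact (hc1.mul_right hR1).mul_right (hR2.mul_right hc1)
    rw [mul_assoc, ← (hG sqC).eq, ← mul_assoc, D.Gam_sqC_mul]
    simp only [mul_assoc]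
  have h2 : ∑ i, D.T (i, Fin.last n) * star (D.T (i, Fin.last n)) =
      D.c * ((1 - D.c) * D.p * (1 - D.c)) := by
    have e : ∀ i, D.T (i, Fin.last n) * star (D.T (i, Fin.last n)) =
        D.p * D.p * D.a * D.e i i := fun i => by
      rw [T_last, star_mul, D.isSelfAdjoint_p.star_eq, D.star_e, ← (D.commute_p_e i 0).eq,
        (D.commute_p_e 0 i).eq]
      calc D.p * D.e i 0 * (D.e 0 i * D.p) = D.p * (D.e i 0 * D.e 0 i) * D.p := by
            simp only [mul_assoc]
        _ = D.p * (D.a * D.e i i) * D.p := by rw [D.e_mul, if_pos rfl]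
        _ = D.p * D.a * (D.p * D.e i i) := by rw [(D.commute_p_e i i).eq]; simp only [mul_assoc]
        _ = D.p * (D.a * D.p) * D.e i i := by simp only [mul_assoc]
        _ = D.p * D.p * D.a * D.e i i := by
            rw [show D.a * D.p = D.p * D.a by rw [p_eq, mul_sub, sub_mul, one_mul, mul_one]]
            simp only [mul_assoc]
    rw [Finset.sum_congr rfl fun i _ => e i, ha, mul_assoc D.p D.p D.a, D.p_mul_a, ← mul_assoc,
      ← D.c_mul_p, mul_assoc (D.c * D.p), show D.a = 1 - D.p by rw [p_eq, sub_sub_cancel],
      mul_assoc D.c, show D.p * ((1 - D.c) * (1 - D.p)) = (1 - D.c) * (D.p * (1 - D.p)) by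
        rw [← mul_assoc, hpc.eq, mul_assoc],
      show D.p * (1 - D.p) = D.p * (1 - D.c) by rw [mul_sub, mul_sub, D.p_mul_c]]
    simp only [mul_assoc]
  rw [Fintype.sum_prod_type]
  simp only [Fin.sum_univ_castSucc, Finset.sum_add_distrib, h1, h2, ← Finset.mul_sum,
    ← Finset.sum_mul, ← mul_add, ← add_mul]
  rw [show (∑ i, D.R i * star (D.R i)) + D.p = D.c by rw [c, q, add_comm]]
  simp only [mul_assoc]

/-- An element good with the zero field vanishes. -/
theorem eq_zero_of_good {b : B} (h : D.Good (b, 0)) : b = 0 := by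
  obtain ⟨hc, hm, hl, hr⟩ := h
  have hbc : Commute b D.c := by rw [← D.Gam_idC]; exact hc _
  set k := D.c * (1 - D.c) with hk
  have hcc : Commute D.c (1 - D.c) := (Commute.one_right _).sub_right (Commute.refl _)
  have hksa : star k = k := by
    rw [hk, star_mul, star_sub, star_one, D.isSelfAdjoint_c.star_eq, hcc.eq]
  have hbk : b * k = 0 := by
    have h0 : b * (k * k) = 0 := by
      rw [← D.sum_T_mul_star, Finset.mul_sum]
      refine Finset.sum_eq_zero fun y _ => ?_
      rw [← mul_assoc, hm y, Finset.sum_eq_zero fun x _ => ?_, zero_mul]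
      rw [show entry x y (0 : Field n) = 0 from rfl, map_zero, zero_mul]
    rw [← CStarRing.mul_star_self_eq_zero_iff, star_mul, hksa, ← mul_assoc, mul_assoc b k k, h0,
      zero_mul]
  have hkb : k * b = 0 := by
    have : Commute k b := (hbc.mul_right ((Commute.one_right _).sub_right hbc)).symm
    rw [this.eq, hbk]
  have hbsc : Commute (star b) D.c := by
    have h : star b * star D.c = star D.c * star b := by
      rw [← star_mul, ← star_mul, hbc.eq]
    rwa [D.isSelfAdjoint_c.star_eq] at h
  have hsk : star b * k = 0 := by rw [← hksa, ← star_mul, hkb, star_zero]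
  have h0 : star b * (1 - D.c) * b = 0 := by
    set z := star b * (1 - D.c) with hz
    have hzc : z * D.c = 0 := by rw [hz, mul_assoc, ← hcc.eq, ← hk, hsk]
    have hzb : z * b * D.c = 0 := by rw [mul_assoc, hbc.eq, ← mul_assoc, hzc, zero_mul]
    have hU : ∀ i, z * b * D.e i 0 = 0 := fun i => by
      rw [mul_assoc, hl.2 z (by rw [hzc, zero_smul]) i]
      simp [rest, CStarMatrix.zero_apply]
    have haa : z * b * (D.a * D.a) = 0 := by
      have : ∑ i, D.e i 0 * D.e 0 i = D.a * D.a := by
        simp only [D.e_mul, if_pos, ← Finset.mul_sum, D.sum_e]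
      rw [← this, Finset.mul_sum]
      exact Finset.sum_eq_zero fun i _ => by rw [← mul_assoc, hU, zero_mul]
    have hza : z * b * D.a = z * b := by
      rw [show D.a = 1 - D.p by rw [p_eq, sub_sub_cancel], mul_sub, mul_one,
        D.mul_p_eq_zero_of_mul_c hzb, sub_zero]
    rwa [← mul_assoc, hza, hza] at haa
  have h1 : star b * D.c * b = 0 := by
    set z := star b * D.c with hz
    have hzc : z * D.c = z := by
      rw [hz, mul_assoc, ← sub_eq_zero, ← mul_sub,
        show D.c * D.c - D.c = -k by rw [hk, mul_sub, mul_one, neg_sub], mul_neg, hsk, neg_zero]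
    have hzb : z * b * D.c = z * b := by rw [mul_assoc, hbc.eq, ← mul_assoc, hzc]
    have hU : ∀ a, z * b * D.Rx a = 0 := fun a => by
      rw [mul_assoc, hr.2 z (by rw [hzc, one_smul]) a]
      simp [rest, CStarMatrix.zero_apply]
    have hq : z * b * D.q = 0 := by
      rw [q, Finset.mul_sum]
      exact Finset.sum_eq_zero fun i _ => by rw [← mul_assoc, ← D.Rx_cast, hU, zero_mul]
    have hp : z * b * D.p = 0 := by rw [← D.Rx_last, hU]
    rw [← hzb, c, mul_add, hp, hq, add_zero]
  rw [← CStarRing.star_mul_self_eq_zero_iff]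
  calc star b * b = star b * (1 - D.c) * b + star b * D.c * b := by
        rw [← add_mul, ← mul_add, sub_add_cancel, mul_one]
    _ = 0 := by rw [h0, h1, add_zero]

end Gen

end Vale.Agent.P101.Universal
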